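import Mathlib

set_option autoImplicit false
set_option linter.unusedSectionVars false
open Finset

namespace Crest.Agent.Ryser

/-- uniform average over a finite type -/
noncomputable def Ex {α : Type*} [Fintype α] (f : α → ℝ) : ℝ := (∑ x, f x) / Fintype.card α

open Classical in
/-- uniform probability -/
noncomputable def Pr {α : Type*} [Fintype α] (A : α → Prop) : ℝ :=
  Ex (fun x => if A x then 1 else 0)

section basic
variable {α β : Type*} [Fintype α] [Fintype β]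

lemma Ex_mono {f g : α → ℝ} (h : ∀ x, f x ≤ g x) : Ex f ≤ Ex g :=
  div_le_div_of_nonneg_right (sum_le_sum fun x _ => h x) (Nat.cast_nonneg _)

lemma Ex_nonneg {f : α → ℝ} (h : ∀ x, 0 ≤ f x) : 0 ≤ Ex f :=
  div_nonneg (sum_nonneg fun x _ => h x) (Nat.cast_nonneg _)

lemma Ex_const [Nonempty α] (c : ℝ) : Ex (fun _ : α => c) = c := by
  unfold Ex
  have : (Fintype.card α : ℝ) ≠ 0 := by exact_mod_cast Fintype.card_ne_zero
  simp

lemma Ex_add (f g : α → ℝ) : Ex (fun x => f x + g x) = Ex f + Ex g := by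
  unfold Ex; rw [sum_add_distrib, add_div]

lemma Ex_sub (f g : α → ℝ) : Ex (fun x => f x - g x) = Ex f - Ex g := by
  unfold Ex; rw [sum_sub_distrib, sub_div]

lemma Ex_neg (f : α → ℝ) : Ex (fun x => -f x) = -Ex f := by
  unfold Ex; rw [sum_neg_distrib, neg_div]

lemma Ex_const_mul (c : ℝ) (f : α → ℝ) : Ex (fun x => c * f x) = c * Ex f := by
  unfold Ex; rw [← mul_sum, mul_div_assoc]

lemma Ex_mul_const (c : ℝ) (f : α → ℝ) : Ex (fun x => f x * c) = Ex f * c := by
  simp_rw [mul_comm _ c, Ex_const_mul]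

lemma Ex_sum {ι : Type*} (s : Finset ι) (f : ι → α → ℝ) :
    Ex (fun x => ∑ i ∈ s, f i x) = ∑ i ∈ s, Ex (f i) := by
  unfold Ex; rw [sum_comm, sum_div]

lemma Ex_comm (f : α → β → ℝ) : Ex (fun x => Ex (f x)) = Ex (fun y => Ex (fun x => f x y)) := by
  unfold Ex
  simp_rw [← sum_div]
  rw [sum_comm, div_right_comm]

lemma Ex_equiv (e : α ≃ β) (f : β → ℝ) : Ex (fun x => f (e x)) = Ex f := by
  unfold Ex; rw [Equiv.sum_comp, Fintype.card_congr e]

lemma Ex_prod (f : α × β → ℝ) : Ex f = Ex (fun x => Ex (fun y => f (x, y))) := by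
  unfold Ex
  rw [Fintype.sum_prod_type, Fintype.card_prod, ← sum_div, div_div]
  push_cast; rw [mul_comm]

lemma Ex_le_of_le [Nonempty α] {f : α → ℝ} {c : ℝ} (h : ∀ x, f x ≤ c) : Ex f ≤ c :=
  (Ex_mono h).trans (Ex_const c).le

lemma le_Ex_of_le [Nonempty α] {f : α → ℝ} {c : ℝ} (h : ∀ x, c ≤ f x) : c ≤ Ex f :=
  (Ex_const c).ge.trans (Ex_mono h)

lemma Pr_nonneg (A : α → Prop) : 0 ≤ Pr A := Ex_nonneg fun x => by split_ifs <;> norm_num

lemma Pr_le_one [Nonempty α] (A : α → Prop) : Pr A ≤ 1 :=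
  Ex_le_of_le fun x => by split_ifs <;> norm_num

lemma Pr_le_Ex {A : α → Prop} {f : α → ℝ} (h0 : ∀ x, 0 ≤ f x) (h : ∀ x, A x → 1 ≤ f x) :
    Pr A ≤ Ex f := Ex_mono fun x => by
  split_ifs with hx
  · exact h x hx
  · exact h0 x

lemma Pr_mono {A B : α → Prop} (h : ∀ x, A x → B x) : Pr A ≤ Pr B :=
  Pr_le_Ex (fun x => by split_ifs <;> norm_num) fun x hx => by rw [if_pos (h x hx)]

lemma Pr_congr {A B : α → Prop} (h : ∀ x, A x ↔ B x) : Pr A = Pr B :=
  le_antisymm (Pr_mono fun x => (h x).1) (Pr_mono fun x => (h x).2)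

lemma Pr_not [Nonempty α] (A : α → Prop) : Pr (fun x => ¬ A x) = 1 - Pr A := by
  unfold Pr
  rw [← Ex_const (α := α) 1, ← Ex_sub, Ex_const]
  congr 1; ext x; by_cases h : A x <;> simp [h]

lemma Pr_or (A B : α → Prop) : Pr (fun x => A x ∨ B x) ≤ Pr A + Pr B := by
  unfold Pr
  rw [← Ex_add]
  refine Ex_mono fun x => ?_
  by_cases h : A x <;> by_cases h' : B x <;> simp [h, h']

lemma Pr_false : Pr (fun _ : α => False) = 0 := by simp [Pr, Ex]

lemma Pr_exists_le {ι : Type*} (s : Finset ι) (A : ι → α → Prop) :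
    Pr (fun x => ∃ i ∈ s, A i x) ≤ ∑ i ∈ s, Pr (A i) := by
  classical
  unfold Pr
  rw [← Ex_sum]
  refine Ex_mono fun x => ?_
  split_ifs with h
  · obtain ⟨i, hi, hx⟩ := h
    refine le_trans ?_ (single_le_sum (f := fun i => if A i x then (1:ℝ) else 0)
      (fun j _ => by split_ifs <;> norm_num) hi)
    simp [hx]
  · exact sum_nonneg fun j _ => by split_ifs <;> norm_num

lemma Pr_exists_le' {ι : Type*} (s : Finset ι) (A : ι → α → Prop) (c : ℝ)
    (h : ∀ i ∈ s, Pr (A i) ≤ c) : Pr (fun x => ∃ i ∈ s, A i x) ≤ s.card * c :=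
  (Pr_exists_le s A).trans (by simpa using sum_le_card_nsmul s _ c h)

lemma Pr_exists_univ {ι : Type*} [Fintype ι] (A : ι → α → Prop) (c : ℝ)
    (h : ∀ i, Pr (A i) ≤ c) : Pr (fun x => ∃ i, A i x) ≤ Fintype.card ι * c := by
  have := Pr_exists_le' univ A c fun i _ => h i
  simpa using this

lemma exists_of_Pr_lt {A B : α → Prop} (h : Pr B < Pr A) : ∃ x, A x ∧ ¬ B x := by
  by_contra hc
  push Not at hc
  exact absurd (Pr_mono hc) (not_le.2 h)

lemma exists_not_of_Pr_lt_one [Nonempty α] {B : α → Prop} (h : Pr B < 1) : ∃ x, ¬ B x := by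
  have : Pr (fun _ : α => True) = 1 := by simp [Pr, Ex_const]
  obtain ⟨x, -, hx⟩ := exists_of_Pr_lt (A := fun _ => True) (this ▸ h)
  exact ⟨x, hx⟩

lemma Pr_markov {f : α → ℝ} (h0 : ∀ x, 0 ≤ f x) {a : ℝ} (ha : 0 < a) :
    Pr (fun x => a ≤ f x) ≤ Ex f / a := by
  rw [div_eq_mul_inv, ← Ex_mul_const]
  exact Pr_le_Ex (fun x => mul_nonneg (h0 x) (by positivity)) fun x hx => by
    rw [← div_eq_mul_inv, le_div_iff₀ ha]; linarith

lemma Ex_card_filter {γ : Type*} (s : Finset γ) (A : γ → α → Prop) [∀ x, DecidablePred (A · x)] :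
    Ex (fun x => ((s.filter (A · x)).card : ℝ)) = ∑ o ∈ s, Pr (A o) := by
  unfold Pr
  rw [← Ex_sum]
  congr 1; ext x
  rw [card_filter]; push_cast
  refine sum_congr rfl fun o _ => ?_
  by_cases h : A o x <;> simp [h]

lemma Pr_eq_card (A : α → Prop) [DecidablePred A] :
    Pr A = (univ.filter A).card / Fintype.card α := by
  unfold Pr Ex
  rw [card_filter]; push_cast
  congr 1
  refine sum_congr rfl fun o _ => ?_
  by_cases h : A o <;> simp [h]

lemma Pr_equiv (e : α ≃ β) (A : β → Prop) : Pr (fun x => A (e x)) = Pr A := by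
  unfold Pr
  exact Ex_equiv e (fun y => @ite ℝ (A y) (Classical.propDecidable _) 1 0)

lemma Pr_le_of_Ex {A : α → β → Prop} {B : α → Prop} [Nonempty β] {c : ℝ}
    (h : ∀ x, B x → 1 / 2 ≤ Pr (A x)) (hc : ∀ y, Pr (fun x => A x y) ≤ c) : Pr B ≤ 2 * c := by
  have h1 : Pr B ≤ Ex (fun x => 2 * Pr (A x)) :=
    Pr_le_Ex (fun x => mul_nonneg (by norm_num) (Pr_nonneg _)) fun x hx => by linarith [h x hx]
  rw [Ex_const_mul] at h1
  have h2 : Ex (fun x => Pr (A x)) ≤ c := by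
    unfold Pr; rw [Ex_comm]; exact Ex_le_of_le hc
  linarith

end basic

section pi
variable {ι Ω : Type*} [Fintype ι] [DecidableEq ι] [Fintype Ω] [Nonempty Ω]

lemma Ex_pi_prod (g : ι → Ω → ℝ) : Ex (fun ω : ι → Ω => ∏ i, g i (ω i)) = ∏ i, Ex (g i) := by
  unfold Ex
  rw [prod_div_distrib, prod_univ_sum, Fintype.piFinset_univ]
  simp

lemma Ex_piecewise (J : Finset ι) (f : (ι → Ω) → ℝ) :
    Ex f = Ex (fun ω₀ => Ex (fun ω' => f (J.piecewise ω' ω₀))) := by
  let e : (ι → Ω) × (ι → Ω) ≃ (ι → Ω) × (ι → Ω) :=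
    { toFun := fun p => (J.piecewise p.2 p.1, J.piecewise p.1 p.2)
      invFun := fun p => (J.piecewise p.2 p.1, J.piecewise p.1 p.2)
      left_inv := fun p => by
        ext i <;> by_cases h : i ∈ J <;> simp [piecewise, h]
      right_inv := fun p => by
        ext i <;> by_cases h : i ∈ J <;> simp [piecewise, h] }
  have h1 := Ex_equiv e (fun p => f p.1)
  rw [Ex_prod, Ex_prod] at h1
  simp only [Ex_const] at h1
  exact h1.symm

lemma Pr_piecewise_le (J : Finset ι) (A : (ι → Ω) → Prop) (c : ℝ)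
    (h : ∀ ω₀, Pr (fun ω' => A (J.piecewise ω' ω₀)) ≤ c) : Pr A ≤ c := by
  unfold Pr
  rw [Ex_piecewise J]
  exact Ex_le_of_le h

lemma Ex_coord (i : ι) (g : Ω → ℝ) : Ex (fun ω : ι → Ω => g (ω i)) = Ex g := by
  have := Ex_pi_prod (ι := ι) (fun j w => if j = i then g w else 1)
  simp only [prod_ite_eq', mem_univ, if_true] at this
  rw [this, prod_eq_single i]
  · simp
  · intro j _ hj; simp [hj, Ex_const]
  · simp

lemma Pr_coord (i : ι) (A : Ω → Prop) : Pr (fun ω : ι → Ω => A (ω i)) = Pr A := by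
  unfold Pr
  exact Ex_coord i (fun y => @ite ℝ (A y) (Classical.propDecidable _) 1 0)

lemma Ex_update (i : ι) (f : (ι → Ω) → ℝ) :
    Ex f = Ex (fun ω => Ex (fun y => f (Function.update ω i y))) := by
  rw [Ex_piecewise {i}]
  congr 1; ext ω₀
  simp only [piecewise_singleton]
  exact Ex_coord i (fun y => f (Function.update ω₀ i y))

lemma Pr_update (i : ι) (A : (ι → Ω) → Prop) :
    Pr A = Ex (fun ω => Pr (fun y => A (Function.update ω i y))) := by
  unfold Pr
  exact Ex_update i _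

lemma Pr_pi_forall (A : ι → Ω → Prop) :
    Pr (fun ω : ι → Ω => ∀ i, A i (ω i)) = ∏ i, Pr (A i) := by
  classical
  unfold Pr
  rw [← Ex_pi_prod]
  congr 1; ext ω
  rw [Fintype.prod_ite_zero]
  simp

lemma exp_one_step (g c : Ω → ℝ) (B θ : ℝ) (hθ : 0 ≤ θ) (hB : 2 * B * θ ≤ 1)
    (hc0 : ∀ y, 0 ≤ c y) (hcB : ∀ y, c y ≤ B) (hg : ∀ y y', |g y - g y'| ≤ c y + c y') :
    Ex (fun y => Real.exp (θ * (g y - Ex g))) ≤ Real.exp (4 * θ ^ 2 * B * Ex c) := by
  have hE0 : 0 ≤ Ex c := Ex_nonneg hc0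
  have hEB : Ex c ≤ B := Ex_le_of_le hcB
  have h1 : ∀ y, |g y - Ex g| ≤ c y + Ex c := by
    intro y
    have e1 : g y - Ex g = Ex (fun y' => g y - g y') := by rw [Ex_sub, Ex_const]
    have e2 : c y + Ex c = Ex (fun y' => c y + c y') := by rw [Ex_add, Ex_const]
    rw [e1, e2, abs_le, ← Ex_neg]
    exact ⟨Ex_mono fun y' => (abs_le.1 (hg y y')).1, Ex_mono fun y' => (abs_le.1 (hg y y')).2⟩
  have h2 : ∀ y, Real.exp (θ * (g y - Ex g)) ≤
      1 + θ * (g y - Ex g) + θ ^ 2 * (2 * B) * (c y + Ex c) := by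
    intro y
    have h3 : |θ * (g y - Ex g)| ≤ θ * (c y + Ex c) := by
      rw [abs_mul, abs_of_nonneg hθ]; exact mul_le_mul_of_nonneg_left (h1 y) hθ
    have h4 : c y + Ex c ≤ 2 * B := by linarith [hcB y]
    have h5 : |θ * (g y - Ex g)| ≤ 1 := h3.trans (by nlinarith)
    have h6 := (abs_le.1 (Real.abs_exp_sub_one_sub_id_le h5)).2
    have h7 : (θ * (g y - Ex g)) ^ 2 ≤ (θ * (c y + Ex c)) ^ 2 := by
      rw [← sq_abs]; exact pow_le_pow_left₀ (abs_nonneg _) h3 2
    have h8 : 0 ≤ c y + Ex c := add_nonneg (hc0 y) hE0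
    have h9 : (θ * (c y + Ex c)) ^ 2 ≤ θ ^ 2 * (2 * B) * (c y + Ex c) := by
      have : (θ * (c y + Ex c)) ^ 2 = θ ^ 2 * (c y + Ex c) * (c y + Ex c) := by ring
      rw [this]
      exact mul_le_mul_of_nonneg_right (mul_le_mul_of_nonneg_left h4 (sq_nonneg _)) h8
    linarith
  refine (Ex_mono h2).trans ?_
  rw [Ex_add, Ex_add, Ex_const, Ex_const_mul, Ex_const_mul, Ex_sub, Ex_add, Ex_const, Ex_const]
  have := Real.add_one_le_exp (4 * θ ^ 2 * B * Ex c)
  nlinarith

lemma exp_moment_aux (f : (ι → Ω) → ℝ) (c : ι → Ω → ℝ) (B θ : ℝ) (hθ : 0 ≤ θ)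
    (hB : 2 * B * θ ≤ 1) (hc0 : ∀ i y, 0 ≤ c i y) (hcB : ∀ i y, c i y ≤ B)
    (hf : ∀ ω i y, |f ω - f (Function.update ω i y)| ≤ c i (ω i) + c i y) (J : Finset ι) :
    ∀ ω₀, Ex (fun ω' => Real.exp (θ * (f (J.piecewise ω' ω₀) -
      Ex (fun ω'' => f (J.piecewise ω'' ω₀))))) ≤ Real.exp (4 * θ ^ 2 * B * ∑ i ∈ J, Ex (c i)) := by
  induction J using Finset.induction_on with
  | empty => intro ω₀; simp [Ex_const]
  | insert i J hi ih =>
    intro ω₀
    have key : ∀ H : (ι → Ω) → ℝ, Ex (fun ω' => H ((insert i J).piecewise ω' ω₀)) =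
        Ex (fun y => Ex (fun ω' => H (J.piecewise ω' (Function.update ω₀ i y)))) := by
      intro H
      rw [Ex_update i, Ex_comm]
      congr 1; ext y; congr 1; ext ω'; congr 1; ext j
      by_cases h1 : j = i
      · subst h1; simp [piecewise, hi]
      · by_cases h2 : j ∈ J <;> simp [piecewise, h1, h2]
    set g : Ω → ℝ := fun y => Ex (fun ω' => f (J.piecewise ω' (Function.update ω₀ i y))) with hg
    rw [key (fun ω => Real.exp (θ * (f ω - _))), key f, sum_insert hi, mul_add, Real.exp_add]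
    have h1 : ∀ y, Ex (fun ω' => Real.exp (θ * (f (J.piecewise ω' (Function.update ω₀ i y)) -
        Ex g))) ≤ Real.exp (θ * (g y - Ex g)) * Real.exp (4 * θ ^ 2 * B * ∑ i ∈ J, Ex (c i)) := by
      intro y
      refine le_trans (le_of_eq ?_) (mul_le_mul_of_nonneg_left (ih (Function.update ω₀ i y)) (Real.exp_pos _).le)
      rw [← Ex_const_mul]
      congr 1; ext ω'
      rw [← Real.exp_add]; congr 1; simp only [hg]; ring
    refine (Ex_mono h1).trans ?_
    rw [Ex_mul_const]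
    refine mul_le_mul_of_nonneg_right ?_ (Real.exp_pos _).le
    refine exp_one_step g (c i) B θ hθ hB (hc0 i) (hcB i) fun y y' => ?_
    simp only [hg]
    rw [← Ex_sub, abs_le]
    have h2 : ∀ ω', |f (J.piecewise ω' (Function.update ω₀ i y)) -
        f (J.piecewise ω' (Function.update ω₀ i y'))| ≤ c i y + c i y' := by
      intro ω'
      have h3 := hf (J.piecewise ω' (Function.update ω₀ i y)) i y'
      have h4 : J.piecewise ω' (Function.update ω₀ i y) i = y := by simp [piecewise, hi]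
      have h5 : Function.update (J.piecewise ω' (Function.update ω₀ i y)) i y' =
          J.piecewise ω' (Function.update ω₀ i y') := by
        ext j
        by_cases h1 : j = i
        · subst h1; simp [piecewise, hi]
        · by_cases h2 : j ∈ J <;> simp [piecewise, h1, h2]
      rwa [h4, h5] at h3
    exact ⟨le_Ex_of_le fun ω' => (abs_le.1 (h2 ω')).1, Ex_le_of_le fun ω' => (abs_le.1 (h2 ω')).2⟩

lemma tail_upper (f : (ι → Ω) → ℝ) (c : ι → Ω → ℝ) (B W t : ℝ) (hB : 0 < B) (hW : 0 < W)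
    (ht : 0 ≤ t) (htW : t ≤ 4 * W) (hc0 : ∀ i y, 0 ≤ c i y) (hcB : ∀ i y, c i y ≤ B)
    (hcW : ∑ i, Ex (c i) ≤ W)
    (hf : ∀ ω i y, |f ω - f (Function.update ω i y)| ≤ c i (ω i) + c i y) :
    Pr (fun ω => Ex f + t ≤ f ω) ≤ Real.exp (-(t ^ 2 / (16 * B * W))) := by
  set θ := t / (8 * B * W) with hθ
  have hθ0 : 0 ≤ θ := by positivity
  have hθB : 2 * B * θ ≤ 1 := by
    rw [hθ, mul_div_assoc', div_le_one (by positivity)]; nlinarith
  have h1 := exp_moment_aux f c B θ hθ0 hθB hc0 hcB hf univ (Classical.arbitrary _)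
  simp only [piecewise_univ] at h1
  have h2 : Pr (fun ω => Ex f + t ≤ f ω) ≤
      Ex (fun ω => Real.exp (-(θ * t)) * Real.exp (θ * (f ω - Ex f))) :=
    Pr_le_Ex (fun _ => by positivity) fun ω h => by
      rw [← Real.exp_add]; apply Real.one_le_exp; nlinarith
  rw [Ex_const_mul] at h2
  refine h2.trans ((mul_le_mul_of_nonneg_left h1 (Real.exp_pos _).le).trans ?_)
  rw [← Real.exp_add]
  apply Real.exp_le_exp.2
  have h3 : 4 * θ ^ 2 * B * ∑ i, Ex (c i) ≤ 4 * θ ^ 2 * B * W :=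
    mul_le_mul_of_nonneg_left hcW (by positivity)
  have h4 : -(θ * t) + 4 * θ ^ 2 * B * W = -(t ^ 2 / (16 * B * W)) := by
    rw [hθ]; field_simp; ring
  linarith

lemma tail_lower (f : (ι → Ω) → ℝ) (c : ι → Ω → ℝ) (B W t : ℝ) (hB : 0 < B) (hW : 0 < W)
    (ht : 0 ≤ t) (htW : t ≤ 4 * W) (hc0 : ∀ i y, 0 ≤ c i y) (hcB : ∀ i y, c i y ≤ B)
    (hcW : ∑ i, Ex (c i) ≤ W)
    (hf : ∀ ω i y, |f ω - f (Function.update ω i y)| ≤ c i (ω i) + c i y) :
    Pr (fun ω => f ω ≤ Ex f - t) ≤ Real.exp (-(t ^ 2 / (16 * B * W))) := by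
  have := tail_upper (fun ω => -f ω) c B W t hB hW ht htW hc0 hcB hcW fun ω i y => by
    rw [← abs_neg]; convert hf ω i y using 2; ring
  rw [Ex_neg] at this
  exact le_trans (Pr_mono fun ω h => by linarith) this

open Classical in
/-- number of elements of `I` killed by no coordinate -/
noncomputable def surv {γ : Type*} (I : Finset γ) (K : ι → Ω → γ → Prop) (ω : ι → Ω) : ℝ :=
  ((I.filter fun o => ∀ i, ¬ K i (ω i) o).card : ℝ)

open Classical in
/-- number of elements of `I` killed by a given coordinate -/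
noncomputable def kills {γ : Type*} (I : Finset γ) (K : ι → Ω → γ → Prop) (i : ι) (w : Ω) : ℝ :=
  ((I.filter fun o => K i w o).card : ℝ)

lemma Ex_surv {γ : Type*} (I : Finset γ) (K : ι → Ω → γ → Prop) :
    Ex (surv I K) = ∑ o ∈ I, ∏ i, (1 - Pr (fun w => K i w o)) := by
  classical
  unfold surv
  rw [Ex_card_filter I (fun o (ω : ι → Ω) => ∀ i, ¬ K i (ω i) o)]
  refine sum_congr rfl fun o _ => ?_
  rw [Pr_pi_forall (fun i w => ¬ K i w o)]
  exact prod_congr rfl fun i _ => Pr_not _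

omit [Fintype ι] [DecidableEq ι] [Nonempty Ω] in
lemma Ex_kills {γ : Type*} (I : Finset γ) (K : ι → Ω → γ → Prop) (i : ι) :
    Ex (kills I K i) = ∑ o ∈ I, Pr (fun w => K i w o) := by
  classical
  unfold kills
  exact Ex_card_filter I (fun o w => K i w o)

omit [Fintype Ω] [Nonempty Ω] in
lemma surv_lip {γ : Type*} (I : Finset γ) (K : ι → Ω → γ → Prop) (ω : ι → Ω) (i : ι) (y : Ω) :
    |surv I K ω - surv I K (Function.update ω i y)| ≤ kills I K i (ω i) + kills I K i y := by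
  classical
  have key : ∀ (ω ω' : ι → Ω), (∀ j, j ≠ i → ω j = ω' j) →
      surv I K ω ≤ surv I K ω' + kills I K i (ω' i) := by
    intro ω ω' h
    unfold surv kills
    norm_cast
    refine le_trans (card_le_card ?_) (card_union_le _ _)
    intro o ho
    simp only [mem_filter, mem_union] at ho ⊢
    by_cases hk : K i (ω' i) o
    · exact Or.inr ⟨ho.1, hk⟩
    · refine Or.inl ⟨ho.1, fun j => ?_⟩
      by_cases hj : j = i
      · subst hj; exact hk
      · rw [← h j hj]; exact ho.2 j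
  have h1 := key ω (Function.update ω i y) fun j hj => by simp [hj]
  have h2 := key (Function.update ω i y) ω fun j hj => by simp [hj]
  simp only [Function.update_self] at h1
  have : 0 ≤ kills I K i y := Nat.cast_nonneg _
  have : 0 ≤ kills I K i (ω i) := Nat.cast_nonneg _
  rw [abs_le]; constructor <;> linarith

lemma surv_lower {γ : Type*} (I : Finset γ) (K : ι → Ω → γ → Prop) (B W t μ : ℝ) (hB : 0 < B)
    (hW : 0 < W) (ht : 0 ≤ t) (htW : t ≤ 4 * W) (hcB : ∀ i y, kills I K i y ≤ B)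
    (hcW : ∑ i, Ex (kills I K i) ≤ W) (hμ : μ ≤ Ex (surv I K)) :
    Pr (fun ω => surv I K ω ≤ μ - t) ≤ Real.exp (-(t ^ 2 / (16 * B * W))) :=
  le_trans (Pr_mono fun ω h => by linarith)
    (tail_lower _ (kills I K) B W t hB hW ht htW (fun _ _ => Nat.cast_nonneg _) hcB hcW
      (surv_lip I K))

lemma surv_upper {γ : Type*} (I : Finset γ) (K : ι → Ω → γ → Prop) (B W t μ : ℝ) (hB : 0 < B)
    (hW : 0 < W) (ht : 0 ≤ t) (htW : t ≤ 4 * W) (hcB : ∀ i y, kills I K i y ≤ B)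
    (hcW : ∑ i, Ex (kills I K i) ≤ W) (hμ : Ex (surv I K) ≤ μ) :
    Pr (fun ω => μ + t ≤ surv I K ω) ≤ Real.exp (-(t ^ 2 / (16 * B * W))) :=
  le_trans (Pr_mono fun ω h => by linarith)
    (tail_upper _ (kills I K) B W t hB hW ht htW (fun _ _ => Nat.cast_nonneg _) hcB hcW
      (surv_lip I K))

/-- exponential moment bound for sums of independent natural-valued variables -/
lemma Pr_sum_ge (X : ι → Ω → ℕ) (z : ℝ) (hz : 1 ≤ z) (u : ℕ) (a : ι → ℝ)
    (ha : ∀ i, Ex (fun w => z ^ X i w) ≤ 1 + a i) :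
    Pr (fun ω : ι → Ω => u ≤ ∑ i, X i (ω i)) ≤ Real.exp (∑ i, a i) / z ^ u := by
  have h1 : Pr (fun ω : ι → Ω => u ≤ ∑ i, X i (ω i)) ≤
      Pr (fun ω : ι → Ω => z ^ u ≤ ∏ i, z ^ X i (ω i)) :=
    Pr_mono fun ω h => by rw [prod_pow_eq_pow_sum]; exact pow_le_pow_right₀ hz h
  refine h1.trans ((Pr_markov (fun ω => by positivity) (by positivity)).trans ?_)
  refine div_le_div_of_nonneg_right ?_ (by positivity)
  rw [Ex_pi_prod (fun i w => z ^ X i w), Real.exp_sum]
  refine prod_le_prod (fun i _ => Ex_nonneg fun _ => by positivity) fun i _ => ?_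
  linarith [ha i, Real.add_one_le_exp (a i)]

/-- sequential avoidance -/
lemma Pr_seq (bad : ι → ι → Ω → Ω → Prop) (bad1 : ι → Ω → Prop) (a : ι → ℝ)
    (ha : ∀ i (ω : ι → Ω), Pr (fun y => bad1 i y ∨
      ∃ j, j ≠ i ∧ (bad i j y (ω j) ∨ bad j i (ω j) y)) ≤ a i) (ha1 : ∀ i, a i ≤ 1) :
    ∏ i, (1 - a i) ≤ Pr (fun ω : ι → Ω => (∀ i, ¬ bad1 i (ω i)) ∧
      ∀ i j, i ≠ j → ¬ bad i j (ω i) (ω j)) := by
  classical
  have key : ∀ J : Finset ι, ∏ i ∈ J, (1 - a i) ≤ Pr (fun ω : ι → Ω => (∀ i ∈ J, ¬ bad1 i (ω i)) ∧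
      ∀ i ∈ J, ∀ j ∈ J, i ≠ j → ¬ bad i j (ω i) (ω j)) := by
    intro J
    induction J using Finset.induction_on with
    | empty => simp [Pr, Ex_const]
    | insert i J hi ih =>
      rw [prod_insert hi]
      refine (mul_le_mul_of_nonneg_left ih (by linarith [ha1 i])).trans ?_
      rw [Pr_update i (fun ω => (∀ k ∈ insert i J, ¬ bad1 k (ω k)) ∧ _)]
      conv_lhs => unfold Pr
      rw [← Ex_const_mul]
      refine Ex_mono fun ω => ?_
      split_ifs with h
      · rw [mul_one]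
        have h1 := Pr_not (fun y => bad1 i y ∨ ∃ j, j ≠ i ∧ (bad i j y (ω j) ∨ bad j i (ω j) y))
        have h2 := ha i ω
        refine le_trans (by linarith) (Pr_mono (A := fun y => ¬ (bad1 i y ∨
          ∃ j, j ≠ i ∧ (bad i j y (ω j) ∨ bad j i (ω j) y))) fun y hy => ?_)
        push Not at hy
        have hne : ∀ k ∈ J, k ≠ i := fun k hk h' => hi (h' ▸ hk)
        refine ⟨fun k hk => ?_, fun k hk l hl hkl => ?_⟩
        · rcases mem_insert.1 hk with rfl | hk
          · simpa using hy.1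
          · simpa [hne k hk] using h.1 k hk
        · rcases mem_insert.1 hk with rfl | hk
          · rcases mem_insert.1 hl with rfl | hl
            · exact absurd rfl hkl
            · simpa [hne l hl] using (hy.2 l (hne l hl)).1
          · rcases mem_insert.1 hl with hl | hl
            · subst hl; simpa [hne k ‹k ∈ J›] using (hy.2 k (hne k ‹k ∈ J›)).2
            · simpa [hne k hk, hne l hl] using h.2 k hk l hl hkl
      · rw [mul_zero]; exact Pr_nonneg _
  simpa using key univ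

end pi

lemma exp_le_prod_one_sub {ι : Type*} (s : Finset ι) (a : ι → ℝ) (h0 : ∀ i ∈ s, 0 ≤ a i)
    (h1 : ∀ i ∈ s, a i ≤ 1 / 2) : Real.exp (-(2 * ∑ i ∈ s, a i)) ≤ ∏ i ∈ s, (1 - a i) := by
  rw [mul_sum, ← sum_neg_distrib, Real.exp_sum]
  refine prod_le_prod (fun _ _ => (Real.exp_pos _).le) fun i hi => ?_
  have h2 := Real.add_one_le_exp (2 * a i)
  have h3 := h0 i hi
  have h4 := h1 i hi
  rw [Real.exp_neg, inv_le_comm₀ (Real.exp_pos _) (by linarith)]
  refine le_trans ?_ h2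
  rw [inv_le_comm₀ (by linarith) (by linarith), ← one_div, div_le_iff₀ (by linarith)]
  nlinarith

end Crest.Agent.Ryser
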